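import Mathlib.LinearAlgebra.CliffordAlgebra.SpinGroup
import Mathlib.Data.Complex.Basic
import Mathlib.Tactic.LinearCombination
import Mathlib.Tactic.NoncommRing

/-!
# P182G: elements of spin groups
-/

namespace Vale.Agent.P182G

open CliffordAlgebra QuadraticMap

variable {M : Type*} [AddCommGroup M] [Module ℂ M] {Q : QuadraticForm ℂ M}

theorem vec_mem {u : M} (h : Q u ≠ 0) :
    ι Q u ∈ (lipschitzGroup Q).toSubmonoid.map (Units.coeHom (CliffordAlgebra Q)) := by
  have h1 : ι Q u * ((Q u)⁻¹ • ι Q u) = 1 := by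
    rw [mul_smul_comm, ι_sq_scalar, Algebra.algebraMap_eq_smul_one, smul_smul, inv_mul_cancel₀ h,
      one_smul]
  have h2 : ((Q u)⁻¹ • ι Q u) * ι Q u = 1 := by
    rw [smul_mul_assoc, ι_sq_scalar, Algebra.algebraMap_eq_smul_one, smul_smul, inv_mul_cancel₀ h,
      one_smul]
  exact ⟨⟨ι Q u, (Q u)⁻¹ • ι Q u, h1, h2⟩, Subgroup.subset_closure ⟨u, rfl⟩, rfl⟩

theorem pair_mem {u w : M} (h : Q u * Q w = 1) : ι Q u * ι Q w ∈ spinGroup Q := by
  have hu : Q u ≠ 0 := left_ne_zero_of_mul_eq_one h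
  have hw : Q w ≠ 0 := right_ne_zero_of_mul_eq_one h
  have key : ∀ a b : M, Q a * Q b = 1 → ι Q b * ι Q a * (ι Q a * ι Q b) = 1 := by
    intro a b hab
    rw [mul_assoc, ← mul_assoc (ι Q a), ι_sq_scalar, Algebra.algebraMap_eq_smul_one,
      smul_mul_assoc, one_mul, mul_smul_comm, ι_sq_scalar, Algebra.algebraMap_eq_smul_one,
      smul_smul, hab, one_smul]
  have hs : star (ι Q u * ι Q w) = ι Q w * ι Q u := by
    rw [star_mul, star_ι, star_ι, neg_mul_neg]
  refine spinGroup.mem_iff.2 ⟨pinGroup.mem_iff.2 ⟨Submonoid.mul_mem _ (vec_mem hu) (vec_mem hw),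
    ?_⟩, ι_mul_ι_mem_evenOdd_zero Q u w⟩
  rw [Unitary.mem_iff, hs]
  exact ⟨key u w h, key w u (by rw [mul_comm]; exact h)⟩

theorem anti {a m : M} (h : polar Q a m = 0) : ι Q m * ι Q a = -(ι Q a * ι Q m) := by
  have := ι_mul_ι_add_swap (Q := Q) a m
  rw [h, map_zero] at this
  exact eq_neg_of_add_eq_zero_right this

theorem null_mem {a m : M} (hm : Q m = 0) (h : polar Q a m = 0) (ha : Q a ≠ 0) :
    1 + ι Q a * ι Q m ∈ spinGroup Q := by
  have e : 1 + ι Q a * ι Q m = ι Q a * ι Q ((Q a)⁻¹ • a + m) := by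
    rw [map_add, map_smul, mul_add, mul_smul_comm, ι_sq_scalar, Algebra.algebraMap_eq_smul_one,
      smul_smul, inv_mul_cancel₀ ha, one_smul]
  rw [e]
  refine pair_mem ?_
  rw [QuadraticMap.map_add Q, polar_smul_left, h, hm, QuadraticMap.map_smul]
  simp only [smul_eq_mul]
  field_simp
  ring

theorem null_mul {a b m : M} (hm : Q m = 0) (h : polar Q b m = 0) :
    (1 + ι Q a * ι Q m) * (1 + ι Q b * ι Q m) = 1 + ι Q (a + b) * ι Q m := by
  have h0 : ι Q m * ι Q m = 0 := by rw [ι_sq_scalar, hm, map_zero]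
  have h1 : ι Q m * (ι Q b * ι Q m) = 0 := by
    rw [← mul_assoc, anti h, neg_mul, mul_assoc, h0, mul_zero, neg_zero]
  rw [map_add, add_mul, add_mul, one_mul, mul_add, mul_one, mul_assoc, h1, mul_zero, add_zero]
  abel

theorem exists_split (a : M) {u : M} (hu : Q u ≠ 0) : ∃ c : ℂ, c ≠ 0 ∧ Q (a - c • u) ≠ 0 := by
  by_contra hc
  push Not at hc
  have e : ∀ c : ℂ, Q (a - c • u) = Q a - c * polar Q a u + c ^ 2 * Q u := by
    intro c
    rw [sub_eq_add_neg, ← neg_smul, QuadraticMap.map_add Q, polar_smul_right,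
      QuadraticMap.map_smul]
    simp only [smul_eq_mul]
    ring
  have h1 := hc 1 one_ne_zero
  have h2 := hc 2 two_ne_zero
  have h3 := hc 3 (by norm_num)
  rw [e] at h1 h2 h3
  exact hu (by linear_combination (h1 - 2 * h2 + h3) / 2)

theorem null_mem' {a m u : M} (hm : Q m = 0) (h : polar Q a m = 0) (hu : Q u ≠ 0)
    (h' : polar Q u m = 0) : 1 + ι Q a * ι Q m ∈ spinGroup Q := by
  obtain ⟨c, hc, hq⟩ := exists_split a hu
  have p1 : polar Q (c • u) m = 0 := by rw [polar_smul_left, h', smul_zero]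
  have p2 : polar Q (a - c • u) m = 0 := by rw [polar_sub_left, h, p1, sub_zero]
  have e : a = (a - c • u) + c • u := (sub_add_cancel _ _).symm
  rw [e, ← null_mul hm p1]
  refine Submonoid.mul_mem _ (null_mem hm p2 hq) (null_mem hm p1 ?_)
  rw [QuadraticMap.map_smul]
  exact mul_ne_zero (mul_ne_zero hc hc) hu

end Vale.Agent.P182G
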