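import Vale.Agent.P182G.Mem
import Mathlib.LinearAlgebra.QuadraticForm.Basic

/-!
# P182G: the split form
-/

namespace Vale.Agent.P182G

open CliffordAlgebra QuadraticMap

variable {n : ℕ} {Q : QuadraticForm ℂ (Fin n ⊕ Fin n → ℂ)}

/-- basis vectors -/
abbrev bv (k : Fin n ⊕ Fin n) : Fin n ⊕ Fin n → ℂ := Pi.single k 1

theorem polar_of (hQ : ∀ v, Q v = ∑ i, v (Sum.inl i) * v (Sum.inr i)) (v w : Fin n ⊕ Fin n → ℂ) :
    polar Q v w = ∑ i, (v (Sum.inl i) * w (Sum.inr i) + v (Sum.inr i) * w (Sum.inl i)) := by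
  rw [polar, hQ, hQ, hQ, ← Finset.sum_sub_distrib, ← Finset.sum_sub_distrib]
  exact Finset.sum_congr rfl fun i _ => by simp only [Pi.add_apply]; ring

theorem q_bv (hQ : ∀ v, Q v = ∑ i, v (Sum.inl i) * v (Sum.inr i)) (k : Fin n ⊕ Fin n) :
    Q (bv k) = 0 := by
  rw [hQ]
  rcases k with k | k <;> simp [Pi.single_apply]

theorem polar_bv (hQ : ∀ v, Q v = ∑ i, v (Sum.inl i) * v (Sum.inr i)) (v : Fin n ⊕ Fin n → ℂ)
    (k : Fin n ⊕ Fin n) : polar Q v (bv k) = v k.swap := by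
  rw [polar_of hQ]
  rcases k with k | k <;> simp [Pi.single_apply]

theorem q_pair (hQ : ∀ v, Q v = ∑ i, v (Sum.inl i) * v (Sum.inr i)) (i : Fin n) (x y : ℂ) :
    Q (x • bv (Sum.inl i) + y • bv (Sum.inr i)) = x * y := by
  rw [hQ]
  simp [Pi.single_apply]

theorem tor_mem (hQ : ∀ v, Q v = ∑ i, v (Sum.inl i) * v (Sum.inr i)) (i : Fin n) (s : ℂˣ) :
    (s : ℂ) • (ι Q (bv (Sum.inl i)) * ι Q (bv (Sum.inr i))) +
      ((s⁻¹ : ℂˣ) : ℂ) • (ι Q (bv (Sum.inr i)) * ι Q (bv (Sum.inl i))) ∈ spinGroup Q := by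
  have h := pair_mem (Q := Q) (u := (1 : ℂ) • bv (Sum.inl i) + (1 : ℂ) • bv (Sum.inr i))
    (w := ((s⁻¹ : ℂˣ) : ℂ) • bv (Sum.inl i) + (s : ℂ) • bv (Sum.inr i))
    (by rw [q_pair hQ, q_pair hQ]; simp)
  refine Eq.mpr (congrArg (· ∈ spinGroup Q) ?_) h
  simp only [one_smul, map_add, map_smul, add_mul, mul_add, mul_smul_comm, ι_sq_scalar, q_bv hQ,
    map_zero, smul_zero, zero_add, add_zero]
  exact add_comm _ _

theorem root_mem (hQ : ∀ v, Q v = ∑ i, v (Sum.inl i) * v (Sum.inr i)) {i j : Fin n} (h : i ≠ j)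
    {k l : Fin n ⊕ Fin n} (hk : k = Sum.inl i ∨ k = Sum.inr i) (hl : l = Sum.inl j ∨ l = Sum.inr j)
    (t : ℂ) : 1 + t • (ι Q (bv k) * ι Q (bv l)) ∈ spinGroup Q := by
  have h' := h.symm
  rw [← smul_mul_assoc, ← map_smul]
  refine null_mem' (u := (1 : ℂ) • bv (Sum.inl i) + (1 : ℂ) • bv (Sum.inr i)) (q_bv hQ l) ?_
    (by rw [q_pair hQ]; simp) ?_
  · rw [polar_bv hQ]
    rcases hk with rfl | rfl <;> rcases hl with rfl | rfl <;> simp [Pi.single_apply, h, h']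
  · rw [polar_bv hQ]
    rcases hl with rfl | rfl <;> simp [Pi.single_apply, h, h']

theorem split_apply (v : Fin n ⊕ Fin n → ℂ) :
    (∑ i : Fin n, QuadraticMap.proj (Sum.inl i) (Sum.inr i) :
      QuadraticForm ℂ (Fin n ⊕ Fin n → ℂ)) v = ∑ i, v (Sum.inl i) * v (Sum.inr i) := by
  simp [QuadraticMap.sum_apply]

end Vale.Agent.P182G
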