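import Vale.Agent.P182G.St
import Mathlib.Analysis.Calculus.Deriv.Basic
import Mathlib.Analysis.Complex.Basic
import Mathlib.RepresentationTheory.Intertwining

/-!
# P182G: the steps from the group `Spin(2n)` to the Lie algebra `so(2n)`
-/

namespace Vale.Agent.P182G

open CliffordAlgebra QuadraticMap Vale.Agent.P182

universe u v

variable {n : ℕ}

/-- `a m` with `m` isotropic, `a` anisotropic and orthogonal to `m`; then `1 + a m ∈ Spin`. -/
def Null (n : ℕ) : Set (Cl n) :=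
  {Y | ∃ a m, Qs n m = 0 ∧ polar (Qs n) a m = 0 ∧ Qs n a ≠ 0 ∧ Y = ι (Qs n) a * ι (Qs n) m}

/-- The curve `c` in the group starts at `1` with tangent vector `X`. -/
def Tan (c : ℂ → Spin n) (X : Cl n) : Prop :=
  c 0 = 1 ∧ ∀ l : Cl n →ₗ[ℂ] ℂ, HasDerivAt (fun t => l (c t : Cl n)) (l X) 0

/-- `D` is a differential of `ρ` at `1`. -/
def IsD {V : Type*} [AddCommGroup V] [Module ℂ V] (ρ : Representation ℂ (Spin n) V)
    (D : Cl n →ₗ[ℂ] Module.End ℂ V) : Prop :=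
  ∀ c X, Tan c X → ∀ (φ : V →ₗ[ℂ] ℂ) (v : V), HasDerivAt (fun t => φ (ρ (c t) v)) (φ (D X v)) 0

/-- The Clifford algebra is finite-dimensional. -/
def FIN : Prop := ∀ n : ℕ, FiniteDimensional ℂ (Cl n)

/-- The elements `1 + Y`, `Y ∈ Null n`, generate the group. -/
def GEN : Prop :=
  ∀ n : ℕ, 2 ≤ n → ∀ H : Subgroup (Spin n),
    (∀ g : Spin n, ∀ Y ∈ Null n, (g : Cl n) = 1 + Y → g ∈ H) → H = ⊤

/-- The embedding of `so(2n)` in the Clifford algebra. -/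
def PHI : Prop :=
  ∀ n : ℕ, 2 ≤ n → ∃ φ : so n →ₗ[ℂ] Cl n,
    (∀ A B : so n, φ ⁅A, B⁆ = φ A * φ B - φ B * φ A) ∧
    (∀ A : so n, φ A ∈ Submodule.span ℂ (Null n)) ∧ (∀ Y ∈ Null n, ∃ A : so n, φ A = Y) ∧
    (∀ a : Fin n → ℂ, φ (cartan a) = ∑ i, (a i / 2) • (e i * f i - f i * e i)) ∧
    ∀ x : so n, IsPositive x → φ x ∈ Submodule.span ℂ
      {Y : Cl n | ∃ i j : Fin n, i < j ∧ (Y = e i * f j ∨ Y = e i * e j)}

/-- Rational representations have a differential. -/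
def DER : Prop :=
  ∀ (n : ℕ) (V : Type u) [AddCommGroup V] [Module ℂ V] [FiniteDimensional ℂ V]
    (ρ : Representation ℂ (Spin n) V), IsRational ρ → ∃ D, IsD ρ D

/-- The differential preserves brackets. -/
def BR : Prop :=
  ∀ (n : ℕ) (V : Type u) [AddCommGroup V] [Module ℂ V] [FiniteDimensional ℂ V]
    (ρ : Representation ℂ (Spin n) V) (D : Cl n →ₗ[ℂ] Module.End ℂ V), IsD ρ D →
    ∀ X ∈ Submodule.span ℂ (Null n), ∀ Y ∈ Submodule.span ℂ (Null n),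
      D (X * Y - Y * X) = D X * D Y - D Y * D X

/-- Taylor series along `t ↦ 1 + t Y`. -/
def EXP : Prop :=
  ∀ (n : ℕ) (V : Type u) [AddCommGroup V] [Module ℂ V]
    (ρ : Representation ℂ (Spin n) V) (D : Cl n →ₗ[ℂ] Module.End ℂ V), IsD ρ D →
    ∀ (g : Spin n), ∀ Y ∈ Null n, (g : Cl n) = 1 + Y → ∀ (φ : V →ₗ[ℂ] ℂ) (v : V),
      φ (ρ g v) = ∑' k : ℕ, ((k.factorial : ℂ))⁻¹ * φ ((D Y ^ k) v)

/-- The differential of a tensor product. -/
def TEN : Prop :=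
  ∀ (n : ℕ) (V : Type u) [AddCommGroup V] [Module ℂ V] [FiniteDimensional ℂ V]
    (W : Type v) [AddCommGroup W] [Module ℂ W] [FiniteDimensional ℂ W]
    (ρ : Representation ℂ (Spin n) V) (σ : Representation ℂ (Spin n) W)
    (D : Cl n →ₗ[ℂ] Module.End ℂ V) (E : Cl n →ₗ[ℂ] Module.End ℂ W), IsD ρ D → IsD σ E →
    ∃ F, IsD (ρ.tprod σ) F ∧
      ∀ X x y, F X (x ⊗ₜ[ℂ] y) = D X x ⊗ₜ[ℂ] y + x ⊗ₜ[ℂ] E X y

/-- A finite-dimensional rational representation with a highest weight vector of weight `lam`. -/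
def HasHW (lam : Fin n → ℚ) : Prop :=
  ∃ (V : Type) (_ : AddCommGroup V) (_ : Module ℂ V) (ρ : Representation ℂ (Spin n) V),
    FiniteDimensional ℂ V ∧ IsRational ρ ∧ IsHighest lam ρ

/-- Half-spin weights `(1/2, …, 1/2, ± 1/2)` (left multiplication on `Cl n`). -/
def EXS : Prop :=
  ∀ (n : ℕ), HasHW (fun _ : Fin n => 1 / 2) ∧
    HasHW (fun i : Fin n => if i.val + 1 = n then -1 / 2 else 1 / 2)

/-- The weights `(1, …, 1, 0, …, 0)` (conjugation `x ↦ g x g*` on `Cl n`). -/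
def EXW : Prop := ∀ (n k : ℕ), HasHW (fun i : Fin n => if i.val < k then 1 else 0)

/-- Sums of weights (tensor products). -/
def EXT : Prop := ∀ (n : ℕ) (lam mu : Fin n → ℚ), HasHW lam → HasHW mu → HasHW (lam + mu)

/-- Dominant weights are sums of the fundamental ones. -/
def EXD : Prop := EXS → EXW → EXT → ∀ (n : ℕ) (lam : Fin n → ℚ), IsDominant lam → HasHW lam

/-- An irreducible subquotient. -/
def EXQ : Prop :=
  ∀ (n : ℕ) (lam : Fin n → ℚ), HasHW lam →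
    ∃ (V : Type) (_ : AddCommGroup V) (_ : Module ℂ V) (ρ : Representation ℂ (Spin n) V),
      IsV lam ρ

end Vale.Agent.P182G
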