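import Vale.Agent.P182.H163.Defs
import Mathlib.LinearAlgebra.CliffordAlgebra.SpinGroup
import Mathlib.RepresentationTheory.Irreducible
import Mathlib.RepresentationTheory.Invariants

/-!
# P182: the group `Spin(2n)` and its rational representations
-/

namespace Vale.Agent.P182S

noncomputable section

section
variable {n : ℕ} {A : Type} [Ring A] [Algebra ℂ A] {V : Type*} [AddCommGroup V] [Module ℂ V]

/-- The regular functions on `G ⊆ A`: polynomials in the linear coordinates of `A`. -/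
def Regular (G : Submonoid A) : Subalgebra ℂ (G → ℂ) :=
  Algebra.adjoin ℂ {F | ∃ l : A →ₗ[ℂ] ℂ, F = fun g : G => l g}

/-- Rational (algebraic) representations: the matrix coefficients are regular functions. -/
def IsRational (G : Submonoid A) (ρ : Representation ℂ G V) : Prop :=
  ∀ (φ : V →ₗ[ℂ] ℂ) (v : V), (fun g => φ (ρ g v)) ∈ Regular G

/-- `s e f + s⁻¹ f e`.  For `e = e_i`, `f = f_i` in the Clifford algebra this is an element of the
maximal torus; it acts on `ℂ^(2n)` by `e_i ↦ s² e_i`, `f_i ↦ s⁻² f_i`, so the character of weight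
`lam` takes it to `s ^ (2 lam_i)`. -/
def tor (e f : A) (s : ℂˣ) : A := (s : ℂ) • (e * f) + ((s⁻¹ : ℂˣ) : ℂ) • (f * e)

/-- `x` lies in a positive root subgroup: `x = 1 + t e_i f_j` (root `ε_i - ε_j`) or
`x = 1 + t e_i e_j` (root `ε_i + ε_j`) with `i < j`. -/
def IsPosRoot (e f : Fin n → A) (x : A) : Prop :=
  ∃ (i j : Fin n) (t : ℂ), i < j ∧ (x = 1 + t • (e i * f j) ∨ x = 1 + t • (e i * e j))

/-- `G` contains the torus elements and the positive root subgroups. -/
def Contains (G : Submonoid A) (e f : Fin n → A) : Prop :=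
  (∀ i s, tor (e i) (f i) s ∈ G) ∧ ∀ x, IsPosRoot e f x → x ∈ G

/-- `ρ` has a highest weight vector of weight `lam = Σ lam_i ε_i`: the torus acts on it by the
character `lam`, and the positive root subgroups fix it. -/
def IsHighest (G : Submonoid A) (e f : Fin n → A) (lam : Fin n → ℚ) (ρ : Representation ℂ G V) :
    Prop :=
  ∃ v : V, v ≠ 0 ∧
    (∀ i, ∃ k : ℤ, (k : ℚ) = 2 * lam i ∧
      ∀ (s : ℂˣ) (g : G), (g : A) = tor (e i) (f i) s → ρ g v = (s : ℂ) ^ k • v) ∧
    ∀ g : G, IsPosRoot e f (g : A) → ρ g v = v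

end

/-- `(U ⊗ V ⊗ W)^G ≠ 0`. -/
def HasInv {G : Type} [Group G] {U V W : Type*} [AddCommGroup U] [Module ℂ U] [AddCommGroup V]
    [Module ℂ V] [AddCommGroup W] [Module ℂ W] (τ : Representation ℂ G U)
    (ρ : Representation ℂ G V) (σ : Representation ℂ G W) : Prop :=
  (τ.tprod (ρ.tprod σ)).invariants ≠ ⊥

/-- The split quadratic form `Σ x_i y_i` on `ℂ^(2n)`. -/
def Qs (n : ℕ) : QuadraticForm ℂ (Fin n ⊕ Fin n → ℂ) :=
  ∑ i : Fin n, QuadraticMap.proj (Sum.inl i) (Sum.inr i)

/-- Its Clifford algebra. -/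
abbrev Cl (n : ℕ) : Type := CliffordAlgebra (Qs n)

/-- The group `Spin(2n) = Spin(2n, ℂ)`, inside the Clifford algebra. -/
abbrev Spin (n : ℕ) : Submonoid (Cl n) := spinGroup (Qs n)

/-- The isotropic vector `e_i`, of weight `ε_i`, in the Clifford algebra. -/
def e {n : ℕ} (i : Fin n) : Cl n := CliffordAlgebra.ι (Qs n) (Pi.single (Sum.inl i) 1)

/-- The isotropic vector `f_i`, of weight `-ε_i`, in the Clifford algebra. -/
def f {n : ℕ} (i : Fin n) : Cl n := CliffordAlgebra.ι (Qs n) (Pi.single (Sum.inr i) 1)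

/-- Representations of `Spin(2n)` on `V`. -/
abbrev Rp (n : ℕ) (V : Type*) [AddCommGroup V] [Module ℂ V] := Representation ℂ (Spin n) V

/-- `ρ` is `V(lam)`: a finite-dimensional irreducible rational representation of `Spin(2n)` with
highest weight `lam`. -/
def IsV {n : ℕ} {V : Type*} [AddCommGroup V] [Module ℂ V] (lam : Fin n → ℚ) (ρ : Rp n V) : Prop :=
  FiniteDimensional ℂ V ∧ IsRational (Spin n) ρ ∧ ρ.IsIrreducible ∧ IsHighest (Spin n) e f lam ρ

end

end Vale.Agent.P182S
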